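import Mathlib
import Vale.Agent.P070.Product

/-!
# Naimark's problem: no counterexample is built from two commuting simple subalgebras

No unital C⋆-algebra generated by two commuting unital infinite-dimensional simple
C⋆-subalgebras has Naimark's property (N). The statement is in ZFC.
-/

namespace Vale.Agent.Results.P070.CommutingSimpleSubalgebras

open Vale.Agent.P070
open scoped ComplexOrder InnerProductSpace

universe u

/-- Representations of `A` on `H`. -/
noncomputable abbrev Rep (A : Type u) [CStarAlgebra A] (H : Type u) [NormedAddCommGroup H]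
    [InnerProductSpace ℂ H] [CompleteSpace H] : Type u :=
  A →⋆ₙₐ[ℂ] (H →L[ℂ] H)

/-- The operator `π a` applied to `x`. -/
noncomputable abbrev act {A : Type u} [CStarAlgebra A] {H : Type u} [NormedAddCommGroup H]
    [InnerProductSpace ℂ H] [CompleteSpace H] (π : Rep A H) (a : A) (x : H) : H :=
  π a x

/-- A representation which is not identically zero. -/
def IsNonzeroRep {A : Type u} [CStarAlgebra A] {H : Type u} [NormedAddCommGroup H]
    [InnerProductSpace ℂ H] [CompleteSpace H] (π : Rep A H) : Prop :=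
  ∃ a x, act π a x ≠ 0

/-- A nonzero representation without nontrivial closed invariant subspaces. -/
def IsIrreducibleRep {A : Type u} [CStarAlgebra A] {H : Type u} [NormedAddCommGroup H]
    [InnerProductSpace ℂ H] [CompleteSpace H] (π : Rep A H) : Prop :=
  IsNonzeroRep π ∧
    ∀ K : Submodule ℂ H, IsClosed (K : Set H) → (∀ a, ∀ x ∈ K, act π a x ∈ K) → K = ⊥ ∨ K = ⊤

/-- Unitary equivalence of representations. -/
def IsUnitarilyEquiv {A : Type u} [CStarAlgebra A] {H : Type u} [NormedAddCommGroup H]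
    [InnerProductSpace ℂ H] [CompleteSpace H] {K : Type u} [NormedAddCommGroup K]
    [InnerProductSpace ℂ K] [CompleteSpace K] (π : Rep A H) (σ : Rep A K) : Prop :=
  ∃ U : H ≃ₗᵢ[ℂ] K, ∀ a x, U (act π a x) = act σ a (U x)

/-- Property (N): any two irreducible representations are unitarily equivalent. -/
def HasPropertyN (A : Type u) [CStarAlgebra A] : Prop :=
  (∃ a : A, a ≠ 0) ∧
    ∀ (H : Type u) [NormedAddCommGroup H] [InnerProductSpace ℂ H] [CompleteSpace H]
      (K : Type u) [NormedAddCommGroup K] [InnerProductSpace ℂ K] [CompleteSpace K]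
      (π : Rep A H) (σ : Rep A K),
      IsIrreducibleRep π → IsIrreducibleRep σ → IsUnitarilyEquiv π σ

/-- Products `b * c` span a dense subspace of `A`. -/
lemma mem_closure_span {A : Type u} [CStarAlgebra A] {B C : StarSubalgebra ℂ A}
    (hcomm : ∀ b ∈ B, ∀ c ∈ C, b * c = c * b) (hgen : (B ⊔ C).topologicalClosure = ⊤) (a : A) :
    a ∈ closure (Submodule.span ℂ {y | ∃ b ∈ B, ∃ c ∈ C, b * c = y} : Set A) := by
  set G : Set A := {y | ∃ b ∈ B, ∃ c ∈ C, b * c = y}
  let S : StarSubalgebra ℂ A :=
    { carrier := (Submodule.span ℂ G : Set A)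
      zero_mem' := zero_mem _
      add_mem' := fun h h' => add_mem h h'
      one_mem' := Submodule.subset_span ⟨1, one_mem B, 1, one_mem C, one_mul 1⟩
      algebraMap_mem' := fun r => by
        rw [Algebra.algebraMap_eq_smul_one]
        exact Submodule.smul_mem _ _
          (Submodule.subset_span ⟨1, one_mem B, 1, one_mem C, one_mul 1⟩)
      mul_mem' := by
        intro x y hx hy
        induction hx, hy using Submodule.span_induction₂ with
        | mem_mem x y hx hy =>
          obtain ⟨b, hb, c, hc, rfl⟩ := hx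
          obtain ⟨b', hb', c', hc', rfl⟩ := hy
          exact Submodule.subset_span ⟨b * b', mul_mem hb hb', c * c', mul_mem hc hc',
            (swap4 hcomm hb' hc).symm⟩
        | zero_left y _ => simp
        | zero_right x _ => simp
        | add_left x y z _ _ _ h h' => rw [add_mul]; exact add_mem h h'
        | add_right x y z _ _ _ h h' => rw [mul_add]; exact add_mem h h'
        | smul_left r x y _ _ h => rw [smul_mul_assoc]; exact Submodule.smul_mem _ r h
        | smul_right r x y _ _ h => rw [mul_smul_comm]; exact Submodule.smul_mem _ r h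
      star_mem' := by
        intro x hx
        induction hx using Submodule.span_induction with
        | mem x hx =>
          obtain ⟨b, hb, c, hc, rfl⟩ := hx
          exact Submodule.subset_span ⟨star b, star_mem hb, star c, star_mem hc, by
            rw [star_mul, hcomm _ (star_mem hb) _ (star_mem hc)]⟩
        | zero => simp
        | add x y _ _ h h' => rw [star_add]; exact add_mem h h'
        | smul r x _ h => rw [star_smul]; exact Submodule.smul_mem _ _ h }
  have hle : B ⊔ C ≤ S := sup_le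
    (fun b hb => Submodule.subset_span ⟨b, hb, 1, one_mem C, mul_one b⟩)
    (fun c hc => Submodule.subset_span ⟨1, one_mem B, c, hc, one_mul c⟩)
  have : a ∈ (B ⊔ C).topologicalClosure := hgen ▸ trivial
  exact closure_mono hle this

/-- **Main theorem.** A unital C⋆-algebra generated by two commuting unital closed star
subalgebras, each simple and infinite dimensional, does not have property (N). -/
theorem result : ∀ (A : Type u) [CStarAlgebra A] (B C : StarSubalgebra ℂ A),
    IsClosed (B : Set A) → IsClosed (C : Set A) →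
    IsSimpleRing B → IsSimpleRing C →
    ¬ FiniteDimensional ℂ B → ¬ FiniteDimensional ℂ C →
    (∀ b ∈ B, ∀ c ∈ C, b * c = c * b) →
    (B ⊔ C).topologicalClosure = ⊤ →
    ¬ HasPropertyN A := by
  intro A _ B C hB hC _ _ hBinf hCinf hcomm hgen hN
  let _ : PartialOrder A := CStarAlgebra.spectralOrder A
  have : StarOrderedRing A := CStarAlgebra.spectralOrderedRing A
  obtain ⟨⟨a₀, ha₀⟩, hN⟩ := hN
  have : Nontrivial A := ⟨⟨a₀, 0, ha₀⟩⟩
  obtain ⟨eB, vB, hTB⟩ := exists_tree B hB hBinf
  obtain ⟨eC, vC, hTC⟩ := exists_tree C hC hCinf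
  set p := P eB vB eC vC with hp
  -- the product state
  obtain ⟨f, hf, hprod⟩ := exists_product_state B C hcomm
  -- the entangled state
  set T : ℕ → Set (A → ℂ) := fun n => states A ∩ {g | g (p n) = 1} with hT
  have hfixed : ∀ n, ∀ g, ∀ hg : g ∈ states A, g (p n) = 1 →
      (toPos hg).gnsStarAlgHom (p n) (cyc hg) = cyc hg := by
    intro n g hg hgp
    set y := (toPos hg).gnsStarAlgHom (p n) (cyc hg) with hy
    have hle : ‖y‖ ≤ 1 := by
      refine ((toPos hg).gnsStarAlgHom (p n) |>.le_opNorm (cyc hg)).trans ?_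
      rw [norm_cyc hg, mul_one]
      exact (NonUnitalStarAlgHom.norm_apply_le _ _).trans (norm_P_le hcomm hTB hTC n)
    have hin : ⟪cyc hg, y⟫_ℂ = 1 := by rw [hy, inner_cyc_gns, hgp]
    have := norm_sub_sq (𝕜 := ℂ) (cyc hg) y
    rw [hin, norm_cyc hg] at this
    simp at this
    have h0 : ‖cyc hg - y‖ = 0 := by nlinarith [norm_nonneg (cyc hg - y), norm_nonneg y]
    exact (sub_eq_zero.1 (norm_eq_zero.1 h0)).symm
  have hdec : ∀ n, T (n + 1) ⊆ T n := by
    rintro n g ⟨hg, hgp⟩
    refine ⟨hg, ?_⟩
    have h := hfixed (n + 1) g hg hgp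
    show g (p n) = 1
    rw [← inner_cyc_gns hg (p n)]
    have h2 : (toPos hg).gnsStarAlgHom (p n) (cyc hg) = cyc hg := by
      calc (toPos hg).gnsStarAlgHom (p n) (cyc hg)
          = (toPos hg).gnsStarAlgHom (p n) ((toPos hg).gnsStarAlgHom (p (n + 1)) (cyc hg)) := by
            rw [h]
        _ = (toPos hg).gnsStarAlgHom (p n * p (n + 1)) (cyc hg) := by
            rw [map_mul, mul_apply_eq_comp]
        _ = cyc hg := by rw [hp, X_succ_fix hcomm hTB hTC, ← hp, h]
    rw [h2]
    simp [inner_self_eq_norm_sq_to_K, norm_cyc hg]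
  have hne : ∀ n, (T n).Nonempty := by
    intro n
    obtain ⟨g, hg, hgp⟩ := exists_state_eq_one (p := p n) (norm_P_le hcomm hTB hTC n) (by
      have h1 : (1 + p n) * p (n + 1) = (2 : ℂ) • p (n + 1) := by
        rw [add_mul, one_mul, hp, X_succ_fix hcomm hTB hTC, two_smul]
      have h2 := norm_mul_le (1 + p n) (p (n + 1))
      rw [h1, norm_smul, Complex.norm_ofNat] at h2
      exact le_of_mul_le_mul_right h2 (norm_pos_iff.2 (P_ne_zero hcomm hTB hTC (n + 1))))
    exact ⟨g, hg, hgp⟩
  have hTclosed : ∀ n, IsClosed (T n) := fun n =>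
    isClosed_states.inter (isClosed_eq (continuous_apply _) continuous_const)
  obtain ⟨g₀, hg₀⟩ := IsCompact.nonempty_iInter_of_sequence_nonempty_isCompact_isClosed T hdec
    hne (isCompact_states.of_isClosed_subset (hTclosed 0) Set.inter_subset_left) hTclosed
  set F : Set (A → ℂ) := ⋂ n, T n with hF
  have hFc : IsCompact F := isCompact_states.of_isClosed_subset (isClosed_iInter hTclosed)
    (fun g hg => (Set.mem_iInter.1 hg 0).1)
  have hFext : IsExtreme ℝ (states A) F := by
    refine ⟨fun g hg => (Set.mem_iInter.1 hg 0).1, ?_⟩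
    rintro g hg g' hg' w hw ⟨a, b, ha, hb, hab, rfl⟩
    refine Set.mem_iInter.2 fun n => ⟨hg, ?_⟩
    have h1 := (Set.mem_iInter.1 hw n).2
    simp only [Set.mem_ofPred_eq, Pi.add_apply, Pi.smul_apply, Complex.real_smul] at h1
    have hn := norm_P_le hcomm hTB hTC n
    have r1 := (Complex.re_le_norm (g (p n))).trans ((hg.2.2.2 _).trans hn)
    have r2 := (Complex.re_le_norm (g' (p n))).trans ((hg'.2.2.2 _).trans hn)
    have r3 := congrArg Complex.re h1
    simp at r3
    have r4 : (g (p n)).re = 1 := by nlinarith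
    have r5 := (hg.2.2.2 (p n)).trans hn
    have r6 : (g (p n)).im = 0 := by
      have := Complex.normSq_eq_norm_sq (g (p n))
      rw [Complex.normSq_apply, r4] at this
      nlinarith [norm_nonneg (g (p n))]
    exact Complex.ext r4 r6
  obtain ⟨ω, hω⟩ := hFc.extremePoints_nonempty ⟨g₀, hg₀⟩
  have hωS := hFext.extremePoints_subset_extremePoints hω
  -- the two representations
  set π := (toPos hf.1).gnsStarAlgHom with hπ
  set Ω := cyc hf.1 with hΩ
  have hirr : ∀ g, ∀ hg : g ∈ (states A).extremePoints ℝ,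
      IsIrreducibleRep (toPos hg.1).gnsNonUnitalStarAlgHom := by
    intro g hg
    refine ⟨⟨1, cyc hg.1, fun h => ?_⟩, gns_irreducible hg⟩
    have h1 : (toPos hg.1).gnsStarAlgHom 1 (cyc hg.1) = 0 := h
    rw [map_one, one_apply_eq_self] at h1
    have := norm_cyc hg.1
    rw [h1, norm_zero] at this
    exact zero_ne_one this
  obtain ⟨U, hU⟩ := hN _ _ _ _ (hirr ω hωS) (hirr f hf)
  set η := U (cyc hωS.1) with hη
  have hηfix : ∀ n, π (p n) η = η := by
    intro n
    have h := hfixed n ω hωS.1 (Set.mem_iInter.1 hω.1 n).2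
    show act (toPos hf.1).gnsNonUnitalStarAlgHom (p n) η = η
    rw [hη, ← hU]
    exact congrArg U h
  -- norms of `π (b * c) Ω`
  have hfac : ∀ b ∈ B, ∀ c ∈ C, ‖π (b * c) Ω‖ = ‖π b Ω‖ * ‖π c Ω‖ := by
    intro b hb c hc
    have hsq : ∀ y, ((‖π y Ω‖ ^ 2 : ℝ) : ℂ) = f (star y * y) := by
      intro y
      rw [← inner_gns hf.1, inner_self_eq_norm_sq_to_K]
      simp [← hπ, ← hΩ]
    have h1 : ((‖π (b * c) Ω‖ ^ 2 : ℝ) : ℂ) = ((‖π b Ω‖ ^ 2 * ‖π c Ω‖ ^ 2 : ℝ) : ℂ) := by
      rw [Complex.ofReal_mul, hsq, hsq, hsq,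
        ← hprod _ (mul_mem (star_mem hb) hb) _ (mul_mem (star_mem hc) hc)]
      congr 1
      rw [star_mul, ← hcomm _ (star_mem hb) _ (star_mem hc), swap4 hcomm hb (star_mem hc)]
    have h2 : ‖π (b * c) Ω‖ ^ 2 = (‖π b Ω‖ * ‖π c Ω‖) ^ 2 := by
      rw [mul_pow]; exact Complex.ofReal_injective h1
    exact (pow_left_inj₀ (norm_nonneg _) (by positivity) two_ne_zero).1 h2
  have horth : ∀ b₀ ∈ B, ∀ c₀ ∈ C, ⟪π (b₀ * c₀) Ω, η⟫_ℂ = 0 := by
    intro b₀ hb₀ c₀ hc₀
    refine inner_eq_zero_of_product hcomm hTB hTC π (fun b hb c hc => ?_) hηfix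
    simp only [← mul_apply_eq_comp, ← map_mul]
    rw [swap4 hcomm hb₀ hc, show b * (b₀ * c₀) = b * b₀ * c₀ from (mul_assoc _ _ _).symm,
      show c * (b₀ * c₀) = b₀ * (c * c₀) by rw [← mul_assoc, ← hcomm _ hb₀ _ hc, mul_assoc],
      hfac _ (mul_mem hb hb₀) _ (mul_mem hc hc₀), hfac _ hb₀ _ hc₀,
      hfac _ (mul_mem hb hb₀) _ hc₀, hfac _ hb₀ _ (mul_mem hc hc₀)]
    ring
  have hall : ∀ a, ⟪π a Ω, η⟫_ℂ = 0 := by
    intro a
    refine (show closure _ ⊆ {y | ⟪π y Ω, η⟫_ℂ = 0} from
      closure_minimal (fun y hy => ?_) (isClosed_eq ?_ continuous_const))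
      (mem_closure_span hcomm hgen a)
    · show ⟪π y Ω, η⟫_ℂ = 0
      induction hy using Submodule.span_induction with
      | mem y hy =>
        obtain ⟨b, hb, c, hc, rfl⟩ := hy
        exact horth b hb c hc
      | zero => simp
      | add x y _ _ h h' => rw [map_add, add_apply, inner_add_left, h, h', add_zero]
      | smul r x _ h => rw [map_smul, smul_apply, inner_smul_left, h, mul_zero]
    · exact (((ContinuousLinearMap.apply ℂ _ Ω).continuous).comp
        (map_continuous π)).inner continuous_const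
  have hη0 : η = 0 := by
    refine inner_self_eq_zero (𝕜 := ℂ) |>.1 ?_
    exact (dense_cyc hf.1).induction_on (p := fun z => ⟪z, η⟫_ℂ = 0) η
      (isClosed_eq (by fun_prop) continuous_const) hall
  have := norm_cyc hωS.1
  rw [← U.norm_map, ← hη, hη0, norm_zero] at this
  exact zero_ne_one this

end Vale.Agent.Results.P070.CommutingSimpleSubalgebras
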